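import Vale.Agent.IsingFIID.Bridge

/-!
# Existence of the free Ising measure (P161 part (a))
-/

namespace Vale.Agent.IsingFIID

open SimpleGraph MeasureTheory

variable {V : Type*}

/-- Bernoulli measure on `Bool`. -/
noncomputable def bern (p : ℝ) : Measure Bool :=
  ENNReal.ofReal p • Measure.dirac true + ENNReal.ofReal (1 - p) • Measure.dirac false

lemma bern_isProb {p : ℝ} (h0 : 0 ≤ p) (h1 : p ≤ 1) : IsProbabilityMeasure (bern p) := by
  constructor
  simp only [bern, Measure.coe_add, Measure.coe_smul, Pi.add_apply, Pi.smul_apply, measure_univ,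
    smul_eq_mul, mul_one]
  rw [← ENNReal.ofReal_add h0 (by linarith)]
  simp

lemma bern_real {p : ℝ} (h0 : 0 ≤ p) (h1 : p ≤ 1) (b : Bool) :
    (bern p).real {b} = if b then p else 1 - p := by
  have h1' : 0 ≤ 1 - p := by linarith
  cases b <;> simp [bern, measureReal_def, h0, h1']

/-- The law of the label at `v`. -/
noncomputable def siteM (θ : ℝ) (o v : V) : Measure Bool :=
  open Classical in bern (if v = o then 1 / 2 else (1 + θ) / 2)

lemma siteM_isProb {θ : ℝ} (h0 : 0 ≤ θ) (h1 : θ ≤ 1) (o v : V) :
    IsProbabilityMeasure (siteM θ o v) := by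
  unfold siteM
  split_ifs
  · exact bern_isProb (by norm_num) (by norm_num)
  · exact bern_isProb (by linarith) (by linarith)

lemma siteM_real_root {θ : ℝ} (o : V) (b : Bool) : (siteM θ o o).real {b} = 1 / 2 := by
  unfold siteM
  rw [if_pos rfl, bern_real (by norm_num) (by norm_num)]
  cases b <;> norm_num

lemma siteM_real {θ : ℝ} (h0 : 0 ≤ θ) (h1 : θ ≤ 1) {o v : V} (hv : v ≠ o) (b : Bool) :
    (siteM θ o v).real {b} = (1 + θ * spin b) / 2 := by
  unfold siteM
  rw [if_neg hv, bern_real (by linarith) (by linarith)]
  cases b <;> simp [spin]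
  ring

open Classical in
/-- The parent of `v` towards the root `o`. -/
noncomputable def par (G : SimpleGraph V) (o v : V) : V :=
  if h : ∃ u, G.Adj v u ∧ G.dist o v = G.dist o u + 1 then h.choose else o

lemma par_spec {G : SimpleGraph V} (hG : G.IsTree) {o v : V} (hv : v ≠ o) :
    G.Adj v (par G o v) ∧ G.dist o v = G.dist o (par G o v) + 1 := by
  have h := exists_parent hG hv
  unfold par
  rw [dif_pos h]
  exact h.choose_spec

/-- Spin at `v` from the labels on the path from `o` to `v` (of length `n`). -/
noncomputable def fld (G : SimpleGraph V) (o : V) : ℕ → V → (V → Bool) → Bool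
  | 0, v, ξ => ξ v
  | n + 1, v, ξ => (fld G o n (par G o v) ξ) == (ξ v)

lemma measurable_fld (G : SimpleGraph V) (o : V) (n : ℕ) (v : V) :
    Measurable (fld G o n v) := by
  induction n generalizing v with
  | zero => exact measurable_pi_apply v
  | succ n ih =>
    have h : Measurable (fun p : Bool × Bool => (p.1 == p.2)) := measurable_of_countable _
    exact h.comp ((ih (par G o v)).prodMk (measurable_pi_apply v))

/-- The field. -/
noncomputable def fldT (G : SimpleGraph V) (o : V) (ξ : V → Bool) (v : V) : Bool :=
  fld G o (G.dist o v) v ξ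

lemma measurable_fldT (G : SimpleGraph V) (o : V) : Measurable (fldT G o) :=
  measurable_pi_lambda _ fun v => measurable_fld G o _ v

lemma fldT_root (G : SimpleGraph V) (o : V) (ξ : V → Bool) : fldT G o ξ o = ξ o := by
  unfold fldT
  rw [dist_self]
  rfl

lemma fldT_step {G : SimpleGraph V} (hG : G.IsTree) {o v : V} (hv : v ≠ o) (ξ : V → Bool) :
    fldT G o ξ v = (fldT G o ξ (par G o v) == ξ v) := by
  unfold fldT
  rw [(par_spec hG hv).2]
  rfl

lemma beq_beq_self (a b : Bool) : (a == (a == b)) = b := by cases a <;> cases b <;> rfl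

lemma spin_beq (a b : Bool) : spin (a == b) = spin a * spin b := by
  cases a <;> cases b <;> simp [spin]

/-- The labels that produce the configuration `η`. -/
noncomputable def lab (G : SimpleGraph V) (o : V) (η : V → Bool) (v : V) : Bool :=
  open Classical in if v = o then η o else (η (par G o v) == η v)

lemma fldT_event {G : SimpleGraph V} (hG : G.IsTree) {o : V} {D : Finset V}
    (hD : RootClosed G o (D : Set V)) (η : V → Bool) :
    fldT G o ⁻¹' {σ | ∀ v ∈ D, σ v = η v} = Set.pi (D : Set V) (fun v => {lab G o η v}) := by
  have hpar : ∀ v ∈ D, v ≠ o → par G o v ∈ D := fun v hv hvo => by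
    obtain ⟨ha, hd⟩ := par_spec hG hvo
    exact_mod_cast hD.2 v (by exact_mod_cast hv) _ ha hd
  ext ξ
  simp only [Set.mem_preimage, Set.mem_ofPred_eq, Set.mem_pi, Finset.mem_coe,
    Set.mem_singleton_iff]
  constructor
  · intro h v hv
    unfold lab
    split_ifs with hvo
    · subst hvo
      rw [← h v hv, fldT_root]
    · rw [← h v hv, ← h _ (hpar v hv hvo), fldT_step hG hvo, beq_beq_self]
  · intro h
    have key : ∀ n : ℕ, ∀ v ∈ D, G.dist o v = n → fldT G o ξ v = η v := by
      intro n
      induction n with
      | zero =>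
        intro v hv hd
        have : o = v := hG.connected.dist_eq_zero_iff.1 hd
        subst this
        rw [fldT_root, h _ hv]
        simp [lab]
      | succ n ih =>
        intro v hv hd
        have hvo : v ≠ o := by
          rintro rfl
          simp at hd
        obtain ⟨ha, hd'⟩ := par_spec hG hvo
        rw [fldT_step hG hvo, ih _ (hpar v hv hvo) (by omega), h v hv]
        simp only [lab, if_neg hvo]
        exact beq_beq_self _ _
    intro v hv
    exact key _ v hv rfl

/-- Product over the edges of a rooted-closed set as a product over the non-root vertices. -/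
lemma prod_edgesIn_eq [DecidableEq V] {G : SimpleGraph V} (hG : G.IsTree) {o : V} (f : Sym2 V → ℝ)
    {D : Finset V} (hD : (G.induce (D : Set V)).Connected) (ho : o ∈ D) :
    ∏ e ∈ edgesIn G D, f e = ∏ v ∈ D.erase o, f s(v, par G o v) := by
  refine grow_induction hG (D := {o}) (P := fun E =>
    ∏ e ∈ edgesIn G E, f e = ∏ v ∈ E.erase o, f s(v, par G o v)) (induce_singleton_connected o) ?_
    ?_ D hD (by simpa using ho)
  · rw [edgesIn_singleton]
    simp
  · intro E x x' hE hoE hx hx' hadj huniq ih
    have hoE' : o ∈ E := by simpa using hoE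
    have hxo : x ≠ o := fun h => hx (h ▸ hoE')
    obtain ⟨h1, h2⟩ := edgesIn_insert hx hx' hadj huniq
    have hins : (G.induce ((insert x E : Finset V) : Set V)).Connected := by
      have := hE
      refine RootClosed.connected hG (o := o) ⟨by simp [hoE'], ?_⟩
      have hcl := rootClosed_of_connected hG hE (o := o) (by exact_mod_cast hoE')
      intro y hy u hyu hd
      rw [Finset.coe_insert, Set.mem_insert_iff] at hy ⊢
      rcases hy with rfl | hy
      · -- the parent of `x` must be `x'`
        right
        rcases hG.dist_eq_dist_add_one_of_adj o hadj with h | h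
        · have : u = x' := parent_unique hG hyu hadj hd h
          rw [this]
          exact_mod_cast hx'
        · exfalso
          have : y ∈ (E : Set V) := hcl.2 x' (by exact_mod_cast hx') y hadj.symm h
          exact hx (by exact_mod_cast this)
      · right
        exact hcl.2 y hy u hyu hd
    have hcl := rootClosed_of_connected hG hins (o := o) (by simp [hoE'])
    obtain ⟨ha, hd⟩ := par_spec hG hxo
    have hparE : par G o x ∈ E := by
      have := hcl.2 x (by simp) _ ha hd
      rw [Finset.coe_insert, Set.mem_insert_iff] at this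
      rcases this with h | h
      · exact absurd h ha.ne'
      · exact_mod_cast h
    have hpar : par G o x = x' := huniq _ hparE ha
    have e1 : (insert x E).erase o = insert x (E.erase o) := by
      rw [Finset.erase_insert_of_ne hxo]
    have hnot : x ∉ E.erase o := fun h => hx (Finset.mem_of_mem_erase h)
    rw [h1, Finset.prod_insert h2, ih, e1, Finset.prod_insert hnot, hpar]

/-- Existence of the free Ising measure. -/
theorem exists_isFreeIsing (G : SimpleGraph V) (hG : G.IsTree) [Countable V] {θ : ℝ} (h0 : 0 ≤ θ)
    (h1 : θ ≤ 1) : ∃ μ, IsFreeIsing G θ μ := by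
  classical
  obtain ⟨o⟩ := hG.connected.nonempty
  have : ∀ v, IsProbabilityMeasure (siteM θ o v) := siteM_isProb h0 h1 o
  set P : Measure (V → Bool) := Measure.infinitePi (siteM θ o) with hP
  have hT := measurable_fldT G o
  set μ : Measure (V → Bool) := P.map (fldT G o) with hμ
  have hprob : IsProbabilityMeasure μ := Measure.isProbabilityMeasure_map hT.aemeasurable
  have hcylm : ∀ (D : Finset V) (η : V → Bool), MeasurableSet {σ : V → Bool | ∀ v ∈ D, σ v = η v} := by
    intro D η
    have : {σ : V → Bool | ∀ v ∈ D, σ v = η v} = ⋂ v ∈ D, {σ : V → Bool | σ v = η v} := by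
      ext σ; simp
    rw [this]
    exact Finset.measurableSet_biInter _ fun v _ =>
      (measurable_pi_apply v) (measurableSet_singleton _)
  -- rooted sets
  have hroot : ∀ D : Finset V, (G.induce (D : Set V)).Connected → o ∈ D → ∀ η : V → Bool,
      μ.real {σ | ∀ v ∈ D, σ v = η v} =
        1 / 2 * ∏ e ∈ edgesIn G D, (1 + θ * bond η e) / 2 := by
    intro D hD ho η
    have hcl := rootClosed_of_connected hG hD (o := o) (by exact_mod_cast ho)
    rw [hμ, map_measureReal_apply hT (hcylm D η), fldT_event hG hcl, measureReal_def, hP,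
      Measure.infinitePi_pi _ (fun v _ => measurableSet_singleton _), ENNReal.toReal_prod,
      prod_edgesIn_eq hG (fun e => (1 + θ * bond η e) / 2) hD ho, ← Finset.mul_prod_erase D _ ho]
    congr 1
    · rw [← measureReal_def, siteM_real_root]
    · refine Finset.prod_congr rfl fun v hv => ?_
      have hvo := Finset.ne_of_mem_erase hv
      rw [← measureReal_def, siteM_real h0 h1 hvo]
      simp only [lab, if_neg hvo, spin_beq, bond, Sym2.lift_mk]
      rw [mul_comm (spin (η v))]
  refine ⟨μ, hprob, ?_⟩
  intro D hD η
  obtain ⟨E, hsub, hE⟩ := extend_finset_to_connected hG.connected.preconnected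
    (t := insert o D) ⟨o, Finset.mem_insert_self _ _⟩
  have hoE : o ∈ E := hsub (Finset.mem_insert_self _ _)
  have hDE : D ⊆ E := (Finset.subset_insert _ _).trans hsub
  have hcyl : ∀ S, μ.real (cyl E S) = wt G θ E (spinF S) := by
    intro S
    unfold cyl
    rw [hroot E hE hoE (fun v => decide (v ∈ S))]
    unfold wt
    congr 1
    refine Finset.prod_congr rfl fun e _ => ?_
    induction e using Sym2.ind with
    | _ u v =>
      rw [edgeWt_mk]
      simp only [bond, Sym2.lift_mk, spin_decide]
  -- the indicator of the cylinder as a local function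
  set f : (V → ℝ) → ℝ := fun x => ∏ v ∈ D, (1 + x v * spin (η v)) / 2 with hf
  have hfD : DependsOn f (D : Set V) := by
    intro a b hab
    simp only [hf]
    exact Finset.prod_congr rfl fun v hv => by rw [hab v (by exact_mod_cast hv)]
  have hfE : DependsOn f (E : Set V) := hfD.mono (by exact_mod_cast hDE)
  have hind : ∀ σ : V → Bool, f (fun v => spin (σ v)) =
      ({σ : V → Bool | ∀ v ∈ D, σ v = η v}).indicator (fun _ => (1:ℝ)) σ := by
    intro σ
    by_cases h : σ ∈ {σ : V → Bool | ∀ v ∈ D, σ v = η v}
    · rw [Set.indicator_of_mem h, hf]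
      refine Finset.prod_eq_one fun v hv => ?_
      simp only
      rw [show σ v = η v from h v hv]
      cases η v <;> norm_num [spin]
    · rw [Set.indicator_of_notMem h, hf]
      simp only [Set.mem_ofPred_eq, not_forall] at h
      obtain ⟨v, hv, hne⟩ := h
      refine Finset.prod_eq_zero hv ?_
      have key : ∀ a b : Bool, a ≠ b → (1 + spin a * spin b) / 2 = 0 := by
        intro a b
        cases a <;> cases b <;> norm_num [spin]
      exact key _ _ hne
  have e1 : μ.real {σ | ∀ v ∈ D, σ v = η v} = ∫ σ, f (fun v => spin (σ v)) ∂μ := by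
    simp_rw [hind]
    rw [integral_indicator_const _ (hcylm D η), smul_eq_mul, mul_one]
  rw [e1, integral_eq_Zsum_of_cyl hcyl hfE, Zsum_of_subset hG hD hE hDE hfD]
  -- evaluate
  set S0 : Finset V := D.filter (fun v => η v = true) with hS0
  have hS0D : S0 ∈ D.powerset := Finset.mem_powerset.2 (Finset.filter_subset _ _)
  have hspin : ∀ v ∈ D, spinF S0 v = spin (η v) := by
    intro v hv
    unfold spinF spin
    by_cases h : η v = true
    · simp [hS0, hv, h]
    · simp [hS0, h]
  unfold Zsum
  rw [Finset.sum_eq_single S0]
  · have : f (spinF S0) = 1 := by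
      rw [hf]
      refine Finset.prod_eq_one fun v hv => ?_
      rw [hspin v hv]
      cases η v <;> norm_num [spin]
    rw [this, mul_one]
    unfold wt
    congr 1
    refine Finset.prod_congr rfl fun e he => ?_
    induction e using Sym2.ind with
    | _ u v =>
      rw [mem_edgesIn] at he
      rw [edgeWt_mk, hspin u he.1, hspin v he.2.1]
      simp only [bond, Sym2.lift_mk]
  · intro S hS hne
    have hSD := Finset.mem_powerset.1 hS
    obtain ⟨v, hv, hvne⟩ : ∃ v ∈ D, spinF S v ≠ spin (η v) := by
      by_contra hcon
      push Not at hcon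
      apply hne
      ext v
      by_cases hv : v ∈ D
      · have h1 := hcon v hv
        have h2 := hspin v hv
        rw [← h2] at h1
        unfold spinF at h1
        by_cases ha : v ∈ S <;> by_cases hb : v ∈ S0 <;> simp [ha, hb] at h1 ⊢ <;> norm_num at h1
      · constructor
        · intro h; exact absurd (hSD h) hv
        · intro h; exact absurd (Finset.mem_powerset.1 hS0D h) hv
    have : f (spinF S) = 0 := by
      rw [hf]
      refine Finset.prod_eq_zero hv ?_
      revert hvne
      rcases spinF_eq S v with h | h <;> rw [h] <;> cases η v <;> norm_num [spin]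
    rw [this, mul_zero]
  · intro h; exact absurd hS0D h

end Vale.Agent.IsingFIID
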