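import Vale.Agent.IsingFIID.MainEstimate
import Vale.Agent.IsingFIID.TreeSum

/-!
# Locality of the scheme on a tree, uniformly in the volume
-/

open MeasureTheory Function Set

namespace Vale.Agent.IsingFIID

variable {V : Type*} [DecidableEq V]

/-- The sum over a finite set of indices `(u,k)` with `k ≤ K` of a product. -/
theorem sum_index_le (A : Finset (V × ℕ)) (K : ℕ) (hA : ∀ j ∈ A, j.2 ≤ K) (f : ℕ → ℝ) (g : V → ℝ)
    (hf : ∀ k, 0 ≤ f k) (hg : ∀ u, 0 ≤ g u) :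
    ∑ j ∈ A, f j.2 * g j.1 ≤ (∑ k ∈ Finset.range (K + 1), f k) * ∑ u ∈ A.image Prod.fst, g u := by
  have hsub : A ⊆ (A.image Prod.fst) ×ˢ Finset.range (K + 1) := by
    intro j hj
    rw [Finset.mem_product]
    exact ⟨Finset.mem_image_of_mem _ hj, Finset.mem_range.2 (Nat.lt_succ_of_le (hA j hj))⟩
  calc ∑ j ∈ A, f j.2 * g j.1 ≤ ∑ j ∈ (A.image Prod.fst) ×ˢ Finset.range (K + 1), f j.2 * g j.1 :=
        Finset.sum_le_sum_of_subset_of_nonneg hsub fun j _ _ => mul_nonneg (hf _) (hg _)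
    _ = (∑ k ∈ Finset.range (K + 1), f k) * ∑ u ∈ A.image Prod.fst, g u := by
        rw [Finset.sum_product, Finset.mul_sum]
        refine Finset.sum_congr rfl fun u _ => ?_
        rw [Finset.sum_mul]

/-- The response bounds. -/
noncomputable def Rbd (G : SimpleGraph V) (lam : ℝ) (i z : V × ℕ) : ℝ :=
  4 * 2 ^ i.2 * lam ^ G.dist i.1 z.1

omit [DecidableEq V] in
theorem Rbd_nonneg (G : SimpleGraph V) {lam : ℝ} (h0 : 0 ≤ lam) (i z : V × ℕ) :
    0 ≤ Rbd G lam i z := by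
  unfold Rbd; positivity

theorem sum_four_two_pow (K : ℕ) : ∑ k ∈ Finset.range (K + 1), (4 * 2 ^ k : ℝ) ≤ 8 * 2 ^ K := by
  rw [← Finset.mul_sum]
  have : ∑ k ∈ Finset.range (K + 1), (2 : ℝ) ^ k = 2 ^ (K + 1) - 1 := by
    rw [geom_sum_eq (by norm_num)]
    norm_num
  rw [this, pow_succ]
  linarith

/-- The response inequality on a tree. -/
theorem response_tree (G : SimpleGraph V) {θ lam A0 : ℝ} (h0 : 0 ≤ θ) (hlam : 0 ≤ lam)
    (hconv : ∀ (S : Finset V) (v z : V),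
      ∑ u ∈ S, θ ^ G.dist v u * lam ^ G.dist u z ≤ A0 * lam ^ G.dist v z)
    (S : Scheme (V × ℕ)) (hc : ∀ j i, S.c j i ≤ θ ^ G.dist j.1 i.1)
    (hh : 16 * S.h ^ 2 * A0 ≤ 1) {l : List (V × ℕ)} (hl : l.Nodup)
    (hord : l.Pairwise fun a b => b.2 ≤ a.2) (z : V × ℕ) (U : V × ℕ → unitInterval)
    (t : unitInterval) (i : V × ℕ) (hi : i ∈ l) :
    |(run S l U i : ℝ) - run S l (update U z t) i| ≤ Rbd G lam i z * |(U z : ℝ) - t| := by
  refine response S z (fun i => Rbd G lam i z) hl ?_ U t i hi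
  intro a l' hsuf
  have hpw : (a :: l').Pairwise fun a b => b.2 ≤ a.2 := hord.sublist hsuf.sublist
  have hstage : ∀ j ∈ l'.toFinset, j.2 ≤ a.2 := fun j hj =>
    (List.pairwise_cons.1 hpw).1 j (by simpa using hj)
  have hhn := S.h_nonneg
  have h1 : ∑ j ∈ l'.toFinset, 4 * S.h ^ 2 * S.c j a * Rbd G lam j z
      ≤ ∑ j ∈ l'.toFinset, (4 * 2 ^ j.2) * ((4 * S.h ^ 2)
        * (θ ^ G.dist a.1 j.1 * lam ^ G.dist j.1 z.1)) := by
    refine Finset.sum_le_sum fun j _ => ?_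
    have h2 := hc j a
    rw [G.dist_comm] at h2
    unfold Rbd
    have h3 : 0 ≤ 4 * S.h ^ 2 * (4 * 2 ^ j.2 * lam ^ G.dist j.1 z.1) := by positivity
    nlinarith [mul_le_mul_of_nonneg_left h2 h3]
  have h4 := sum_index_le l'.toFinset a.2 hstage (fun k => 4 * 2 ^ k)
    (fun u => (4 * S.h ^ 2) * (θ ^ G.dist a.1 u * lam ^ G.dist u z.1))
    (fun k => by positivity) (fun u => by positivity)
  rw [← Finset.mul_sum (s := Finset.image Prod.fst l'.toFinset)] at h4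
  have h5 := hconv (l'.toFinset.image Prod.fst) a.1 z.1
  have h6 := sum_four_two_pow a.2
  have h7 : (∑ k ∈ Finset.range (a.2 + 1), (4 * 2 ^ k : ℝ)) * ((4 * S.h ^ 2)
      * ∑ u ∈ l'.toFinset.image Prod.fst, θ ^ G.dist a.1 u * lam ^ G.dist u z.1)
      ≤ (8 * 2 ^ a.2) * ((4 * S.h ^ 2) * (A0 * lam ^ G.dist a.1 z.1)) := by
    refine mul_le_mul h6 (mul_le_mul_of_nonneg_left h5 (by positivity)) ?_ (by positivity)
    refine mul_nonneg (by positivity) (Finset.sum_nonneg fun u _ => by positivity)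
  have h8 : (8 * 2 ^ a.2) * ((4 * S.h ^ 2) * (A0 * lam ^ G.dist a.1 z.1))
      ≤ 2 * 2 ^ a.2 * lam ^ G.dist a.1 z.1 := by
    have h9 : (0 : ℝ) ≤ 2 * 2 ^ a.2 * lam ^ G.dist a.1 z.1 := by positivity
    nlinarith [mul_le_mul_of_nonneg_left hh h9]
  have h10 : (if a = z then (2 : ℝ) else 0) ≤ 2 * 2 ^ a.2 * lam ^ G.dist a.1 z.1 := by
    by_cases haz : a = z
    · subst haz
      simp only [if_true, SimpleGraph.dist_self, pow_zero, mul_one]
      have : (1 : ℝ) ≤ 2 ^ a.2 := one_le_pow₀ (by norm_num)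
      linarith
    · rw [if_neg haz]; positivity
  have h11 : Rbd G lam a z
      = 2 * 2 ^ a.2 * lam ^ G.dist a.1 z.1 + 2 * 2 ^ a.2 * lam ^ G.dist a.1 z.1 := by
    unfold Rbd; ring
  rw [h11]
  exact add_le_add h10 ((h1.trans h4).trans (h7.trans h8))

omit [DecidableEq V] in
/-- Balls in a regular tree have bounded size. -/
theorem card_ball_le (G : SimpleGraph V) (hG : G.IsTree) [G.LocallyFinite] {d : ℕ} (hd : 3 ≤ d)
    (hreg : G.IsRegularOfDegree d) (m : ℕ) (S : Finset V) (v : V) (hS : ∀ u ∈ S, G.dist v u ≤ m) :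
    (S.card : ℝ) ≤ 2 * d * d ^ m := by
  have hd' : (3 : ℝ) ≤ d := by exact_mod_cast hd
  have hd0 : (0 : ℝ) < d := by linarith
  have hq : ((d : ℝ) - 1) * (1 / d) < 1 := by
    rw [mul_one_div, div_lt_one hd0]; linarith
  have h1 := tree_geom G hG hd hreg (q := 1 / (d : ℝ)) (by positivity) hq 0 S v
    (fun u _ => Nat.zero_le _)
  have h2 : 2 * (((d : ℝ) - 1) * (1 / d)) ^ 0 / (1 - ((d : ℝ) - 1) * (1 / d)) = 2 * d := by
    have : 1 - ((d : ℝ) - 1) * (1 / d) = 1 / d := by field_simp; ring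
    rw [this]; field_simp
  rw [h2] at h1
  have h3 : (S.card : ℝ) * (1 / (d : ℝ)) ^ m ≤ ∑ u ∈ S, (1 / (d : ℝ)) ^ G.dist v u := by
    rw [← nsmul_eq_mul, ← Finset.sum_const]
    refine Finset.sum_le_sum fun u hu => ?_
    exact pow_le_pow_of_le_one (by positivity) (by rw [div_le_one hd0]; linarith) (hS u hu)
  have h4 := h3.trans h1
  rw [one_div, inv_pow, ← div_eq_mul_inv, div_le_iff₀ (by positivity)] at h4
  exact h4

/-- The first error term. -/
theorem first_term (G : SimpleGraph V) (hG : G.IsTree) [G.LocallyFinite] {d : ℕ} (hd : 3 ≤ d)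
    (hreg : G.IsRegularOfDegree d) {lam : ℝ}
    (h2 : ((d : ℝ) - 1) * lam ^ 2 < 1) (k : ℕ) {ε : ℝ} (hε : 0 < ε) :
    ∃ m : ℕ, ∀ (v : V) (A : Finset (V × ℕ)), (∀ j ∈ A, j.2 ≤ k) → (∀ j ∈ A, ¬ G.dist v j.1 ≤ m) →
      2 * Real.sqrt (∑ z ∈ A, (Rbd G lam (v, k) z) ^ 2) ≤ ε := by
  set C : ℝ := (k + 1) * (4 * 2 ^ k) ^ 2 with hC
  have hCpos : 0 < C := by positivity
  obtain ⟨r, hr⟩ := tree_tail G hG hd hreg (q := lam ^ 2) (by positivity) h2
    (ε := (ε / 2) ^ 2 / C) (by positivity)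
  refine ⟨r, fun v A hk hdist => ?_⟩
  have h3 : ∑ z ∈ A, (Rbd G lam (v, k) z) ^ 2
      = ∑ z ∈ A, (4 * 2 ^ k) ^ 2 * (lam ^ 2) ^ G.dist v z.1 := by
    refine Finset.sum_congr rfl fun z _ => ?_
    unfold Rbd
    rw [mul_pow, ← pow_mul, ← pow_mul, mul_comm (G.dist v z.1) 2]
  have h4 := sum_index_le A k hk (fun _ => (4 * 2 ^ k : ℝ) ^ 2) (fun u => (lam ^ 2) ^ G.dist v u)
    (fun _ => by positivity) (fun u => by positivity)
  have h5 := hr (A.image Prod.fst) v (fun u hu => by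
    obtain ⟨j, hj, rfl⟩ := Finset.mem_image.1 hu
    have := hdist j hj
    omega)
  have h6 : ∑ z ∈ A, (Rbd G lam (v, k) z) ^ 2 ≤ (ε / 2) ^ 2 := by
    rw [h3]
    refine h4.trans ?_
    rw [Finset.sum_const, Finset.card_range, nsmul_eq_mul]
    push_cast
    calc ((k : ℝ) + 1) * (4 * 2 ^ k) ^ 2 * ∑ u ∈ A.image Prod.fst, (lam ^ 2) ^ G.dist v u
        ≤ C * ((ε / 2) ^ 2 / C) := mul_le_mul_of_nonneg_left h5 hCpos.le
      _ = (ε / 2) ^ 2 := by field_simp
  have h7 := Real.sqrt_le_sqrt h6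
  rw [Real.sqrt_sq (by positivity)] at h7
  linarith

/-- The second error term. -/
theorem second_term (G : SimpleGraph V) (hG : G.IsTree) [G.LocallyFinite] {d : ℕ} (hd : 3 ≤ d)
    (hreg : G.IsRegularOfDegree d) {θ lam : ℝ} (h0 : 0 ≤ θ) (h1 : θ < lam)
    (h2 : ((d : ℝ) - 1) * lam ^ 2 < 1) (S : Scheme (V × ℕ))
    (hc : ∀ j i, S.c j i ≤ θ ^ G.dist j.1 i.1) (k m : ℕ) {ε : ℝ} (hε : 0 < ε) :
    ∃ r : ℕ, ∀ (v : V) (A B : Finset (V × ℕ)), (∀ j ∈ A, j.2 ≤ k) → (∀ j ∈ B, j.2 ≤ k) →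
      (∀ j ∈ A, G.dist v j.1 ≤ m) → (∀ j ∈ B, ¬ G.dist v j.1 ≤ m + r) →
      ∑ z ∈ A, Rbd G lam (v, k) z * (S.h / 4
        * Real.sqrt (∑ j ∈ B, (2 * S.h * S.c j z) ^ 2)) ≤ ε := by
  have hd' : (3 : ℝ) ≤ d := by exact_mod_cast hd
  have hlam : 0 < lam := lt_of_le_of_lt h0 h1
  have hlam1 : lam ≤ 1 := by
    by_contra hcon
    push Not at hcon
    nlinarith
  have hθ2 : ((d : ℝ) - 1) * θ ^ 2 < 1 := by
    refine lt_of_le_of_lt (mul_le_mul_of_nonneg_left ?_ (by linarith)) h2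
    exact pow_le_pow_left₀ h0 h1.le 2
  set N : ℝ := (k + 1) * (4 * 2 ^ k) * (2 * d * d ^ m) with hN
  have hNpos : 0 < N := by positivity
  obtain ⟨r, hr⟩ := tree_tail G hG hd hreg (q := θ ^ 2) (by positivity) hθ2
    (ε := (ε / N) ^ 2 / (k + 1)) (by positivity)
  refine ⟨r, fun v A B hkA hkB hA hB => ?_⟩
  have hh := S.h_nonneg
  have hh1 := S.h_le
  -- the inner sums
  have h3 : ∀ z ∈ A, Real.sqrt (∑ j ∈ B, (2 * S.h * S.c j z) ^ 2) ≤ ε / N := by
    intro z hz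
    have h4 : ∑ j ∈ B, (2 * S.h * S.c j z) ^ 2 ≤ ∑ j ∈ B, 1 * (θ ^ 2) ^ G.dist z.1 j.1 := by
      refine Finset.sum_le_sum fun j _ => ?_
      have h5 := hc j z
      rw [G.dist_comm] at h5
      have h6 := S.c_nonneg j z
      have h7 : 2 * S.h * S.c j z ≤ θ ^ G.dist z.1 j.1 := by
        calc 2 * S.h * S.c j z ≤ 1 * S.c j z := mul_le_mul_of_nonneg_right (by linarith) h6
          _ = S.c j z := one_mul _
          _ ≤ _ := h5
      have h8 : (θ ^ 2) ^ G.dist z.1 j.1 = (θ ^ G.dist z.1 j.1) ^ 2 := by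
        rw [← pow_mul, ← pow_mul, Nat.mul_comm]
      rw [one_mul, h8]
      exact pow_le_pow_left₀ (by positivity) h7 2
    have h8 := sum_index_le B k hkB (fun _ => (1 : ℝ)) (fun u => (θ ^ 2) ^ G.dist z.1 u)
      (fun _ => by positivity) (fun u => by positivity)
    have h9 := hr (B.image Prod.fst) z.1 (fun u hu => by
      obtain ⟨j, hj, rfl⟩ := Finset.mem_image.1 hu
      have e1 := hB j hj
      have e2 := hA z hz
      have e3 := hG.connected.dist_triangle (u := v) (v := z.1) (w := j.1)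
      omega)
    have h10 : ∑ j ∈ B, (2 * S.h * S.c j z) ^ 2 ≤ (ε / N) ^ 2 := by
      refine (h4.trans h8).trans ?_
      rw [Finset.sum_const, Finset.card_range, nsmul_eq_mul]
      push_cast
      calc ((k : ℝ) + 1) * 1 * ∑ u ∈ B.image Prod.fst, (θ ^ 2) ^ G.dist z.1 u
          ≤ ((k : ℝ) + 1) * 1 * ((ε / N) ^ 2 / (k + 1)) :=
            mul_le_mul_of_nonneg_left h9 (by positivity)
        _ = (ε / N) ^ 2 := by field_simp
    have h11 := Real.sqrt_le_sqrt h10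
    rwa [Real.sqrt_sq (by positivity)] at h11
  have h12 : ∑ z ∈ A, Rbd G lam (v, k) z ≤ N := by
    have e1 : ∑ z ∈ A, Rbd G lam (v, k) z ≤ ∑ z ∈ A, (4 * 2 ^ k) * (1 : ℝ) := by
      refine Finset.sum_le_sum fun z _ => ?_
      unfold Rbd
      exact mul_le_mul_of_nonneg_left (pow_le_one₀ hlam.le hlam1) (by positivity)
    have e2 := sum_index_le A k hkA (fun _ => (4 * 2 ^ k : ℝ)) (fun _ => (1 : ℝ))
      (fun _ => by positivity) (fun u => by positivity)
    have e3 := card_ball_le G hG hd hreg m (A.image Prod.fst) v (fun u hu => by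
      obtain ⟨j, hj, rfl⟩ := Finset.mem_image.1 hu
      exact hA j hj)
    refine (e1.trans e2).trans ?_
    rw [Finset.sum_const, Finset.card_range, nsmul_eq_mul, Finset.sum_const, nsmul_eq_mul, mul_one]
    push_cast
    exact mul_le_mul_of_nonneg_left e3 (by positivity)
  calc ∑ z ∈ A, Rbd G lam (v, k) z * (S.h / 4 * Real.sqrt (∑ j ∈ B, (2 * S.h * S.c j z) ^ 2))
      ≤ ∑ z ∈ A, Rbd G lam (v, k) z * (1 * (ε / N)) := by
        refine Finset.sum_le_sum fun z hz => ?_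
        refine mul_le_mul_of_nonneg_left ?_ (Rbd_nonneg G hlam.le _ _)
        exact mul_le_mul (by linarith) (h3 z hz) (Real.sqrt_nonneg _) (by norm_num)
    _ = (∑ z ∈ A, Rbd G lam (v, k) z) * (ε / N) := by rw [one_mul, Finset.sum_mul]
    _ ≤ N * (ε / N) := mul_le_mul_of_nonneg_right h12 (by positivity)
    _ = ε := by field_simp

/-- Locality of the scheme, uniformly in the volume: if `T` contains all indices of `l` within
distance `n` of `v`, the schemes on `l` and on its part in `T` are close at `(v,k)`. -/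
theorem uniform_estimate (G : SimpleGraph V) (hG : G.IsTree) [G.LocallyFinite] {d : ℕ}
    (hd : 3 ≤ d) (hreg : G.IsRegularOfDegree d) {θ lam A0 : ℝ} (h0 : 0 ≤ θ) (h1 : θ < lam)
    (h2 : ((d : ℝ) - 1) * lam ^ 2 < 1)
    (hconv : ∀ (S : Finset V) (v z : V),
      ∑ u ∈ S, θ ^ G.dist v u * lam ^ G.dist u z ≤ A0 * lam ^ G.dist v z)
    (S : Scheme (V × ℕ)) (hc : ∀ j i, S.c j i ≤ θ ^ G.dist j.1 i.1)
    (hh : 16 * S.h ^ 2 * A0 ≤ 1) (k : ℕ) {ε : ℝ} (hε : 0 < ε) :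
    ∃ n : ℕ, ∀ (v : V) (l : List (V × ℕ)) (_ : l.Nodup) (_ : l.Pairwise fun a b => b.2 ≤ a.2)
      (_ : ∀ j ∈ l, j.2 ≤ k) (_ : (v, k) ∈ l) (T : V × ℕ → Prop) [DecidablePred T]
      (_ : ∀ j ∈ l, G.dist v j.1 ≤ n → T j),
      ∫ U, |(run S (l.filter (fun i => decide (T i))) U (v, k) : ℝ) - run S l U (v, k)|
        ∂(unif (V × ℕ)) ≤ ε := by
  classical
  have hlam : 0 < lam := lt_of_le_of_lt h0 h1
  obtain ⟨m, hm⟩ := first_term G hG hd hreg h2 k (half_pos hε)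
  obtain ⟨r, hr⟩ := second_term G hG hd hreg h0 h1 h2 S hc k m (half_pos hε)
  refine ⟨m + r, fun v l hl hord hk hv T _ hT => ?_⟩
  have hTv : T (v, k) := hT _ hv (by simp)
  have hest := main_estimate S T (fun j => G.dist v j.1 ≤ m) (v, k) hTv hl hv
    (fun z => Rbd G lam (v, k) z) (fun z => Rbd_nonneg G hlam.le _ _) (fun z _ U t => by
      refine response_tree G h0 hlam.le hconv S hc hh (hl.filter _)
        (hord.sublist List.filter_sublist) z U t (v, k) ?_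
      rw [List.mem_filter]
      exact ⟨hv, by simpa using hTv⟩)
  have e1 := hm v (l.toFinset.filter (fun z => T z ∧ ¬ G.dist v z.1 ≤ m))
    (fun j hj => by
      rw [Finset.mem_filter, List.mem_toFinset] at hj
      exact hk j hj.1)
    (fun j hj => by
      rw [Finset.mem_filter] at hj
      exact hj.2.2)
  have e2 := hr v (l.toFinset.filter (fun z => T z ∧ G.dist v z.1 ≤ m))
    (l.toFinset.filter (fun j => ¬ T j))
    (fun j hj => by
      rw [Finset.mem_filter, List.mem_toFinset] at hj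
      exact hk j hj.1)
    (fun j hj => by
      rw [Finset.mem_filter, List.mem_toFinset] at hj
      exact hk j hj.1)
    (fun j hj => by
      rw [Finset.mem_filter] at hj
      exact hj.2.2)
    (fun j hj hle => by
      rw [Finset.mem_filter, List.mem_toFinset] at hj
      exact hj.2 (hT j hj.1 hle))
  linarith

end Vale.Agent.IsingFIID
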